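import Vale.Agent.P095JS.Hat

/-! Comparison and rounding of finite families of points of the unit interval. -/

open scoped unitInterval
open Vale.Agent.JS.Hat (clamp)

namespace Vale.Agent.P095U27

theorem clamp_nonneg (t : ℝ) : 0 ≤ clamp t := le_max_left _ _

theorem clamp_le_one (t : ℝ) : clamp t ≤ 1 := max_le zero_le_one (min_le_left _ _)

theorem clamp_eq_zero {t : ℝ} (h : t ≤ 0) : clamp t = 0 := Vale.Agent.JS.Hat.clamp_of_nonpos h

theorem clamp_eq_one {t : ℝ} (h : 1 ≤ t) : clamp t = 1 := by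
  unfold clamp
  rw [min_eq_left h, max_eq_right zero_le_one]

theorem clamp_mono {s t : ℝ} (h : s ≤ t) : clamp s ≤ clamp t :=
  max_le_max le_rfl (min_le_min le_rfl h)

theorem continuous_clamp : Continuous clamp := by
  unfold clamp
  fun_prop

theorem sorted_le {k M : ℕ} (hM : 0 < M) {t t' : Fin k → I} (ht : Monotone t) (ht' : Monotone t')
    (h : ∀ K : ℕ, K + 2 ≤ M →
      ∑ j, clamp (M * (t' j : ℝ) - (K + 1)) ≤ ∑ j, clamp (M * (t j : ℝ) - K)) (j : Fin k) :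
    (t' j : ℝ) ≤ t j + 3 / M := by
  by_contra hlt
  have hM' : (0 : ℝ) < M := by exact_mod_cast hM
  have h1 : M * (t j : ℝ) + 3 < M * (t' j : ℝ) := by
    have h2 := mul_lt_mul_of_pos_left (not_le.1 hlt) hM'
    rwa [mul_add, mul_div_cancel₀ _ hM'.ne'] at h2
  set K := ⌈M * (t j : ℝ)⌉₊ with hK
  have hK1 : M * (t j : ℝ) ≤ K := Nat.le_ceil _
  have hK2 : (K : ℝ) < M * (t j : ℝ) + 1 :=
    Nat.ceil_lt_add_one (mul_nonneg hM'.le (t j).2.1)
  have hK3 : M * (t' j : ℝ) ≤ M := mul_le_of_le_one_right hM'.le (t' j).2.2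
  have hK4 : K + 2 ≤ M := by
    have h3 : ((K + 2 : ℕ) : ℝ) ≤ M := by
      push_cast
      linarith
    exact_mod_cast h3
  have hL : ∑ i : Fin k, (if j ≤ i then (1 : ℝ) else 0) ≤
      ∑ i, clamp (M * (t' i : ℝ) - (K + 1)) := by
    refine Finset.sum_le_sum fun i _ => ?_
    split_ifs with hi
    · have h4 : (t' j : ℝ) ≤ t' i := ht' hi
      have h5 := mul_le_mul_of_nonneg_left h4 hM'.le
      rw [clamp_eq_one (by linarith)]
    · exact clamp_nonneg _
  have hR : ∑ i, clamp (M * (t i : ℝ) - K) ≤ ∑ i : Fin k, (if j < i then (1 : ℝ) else 0) := by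
    refine Finset.sum_le_sum fun i _ => ?_
    split_ifs with hi
    · exact clamp_le_one _
    · have h4 : (t i : ℝ) ≤ t j := ht (not_lt.1 hi)
      have h5 := mul_le_mul_of_nonneg_left h4 hM'.le
      rw [clamp_eq_zero (by linarith)]
  have hS : ∑ i : Fin k, (if j < i then (1 : ℝ) else 0) <
      ∑ i : Fin k, (if j ≤ i then (1 : ℝ) else 0) := by
    refine Finset.sum_lt_sum (fun i _ => ?_) ⟨j, Finset.mem_univ _, by simp⟩
    by_cases hi : j < i
    · rw [if_pos hi, if_pos hi.le]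
    · rw [if_neg hi]
      split_ifs <;> norm_num
  linarith [h K hK4]

theorem sorted_le' {k : ℕ} {t t' : Fin k → I} (ht : Monotone t) (ht' : Monotone t')
    (h : ∀ g : C(I, ℝ), ∑ j, g (t' j) = ∑ j, g (t j)) (j : Fin k) : (t' j : ℝ) ≤ t j := by
  refine le_of_forall_pos_le_add fun ε hε => ?_
  obtain ⟨M, hM⟩ := exists_nat_gt (3 / ε)
  have hM' : (0 : ℝ) < M := lt_trans (by positivity) hM
  have h1 := sorted_le (M := M) (by exact_mod_cast hM') ht ht' (fun K _ => by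
    have h2 := h ⟨fun x => clamp (M * (x : ℝ) - (K + 1)), continuous_clamp.comp (by fun_prop)⟩
    simp only [ContinuousMap.coe_mk] at h2
    rw [h2]
    exact Finset.sum_le_sum fun i _ => clamp_mono (by linarith)) j
  have h3 : 3 / (M : ℝ) ≤ ε := by
    rw [div_lt_iff₀ hε] at hM
    rw [div_le_iff₀ hM']
    linarith
  linarith

theorem sorted_eq {k : ℕ} {t t' : Fin k → I} (ht : Monotone t) (ht' : Monotone t')
    (h : ∀ g : C(I, ℝ), ∑ j, g (t' j) = ∑ j, g (t j)) : t' = t :=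
  funext fun j => Subtype.ext
    (le_antisymm (sorted_le' ht ht' h j) (sorted_le' ht' ht (fun g => (h g).symm) j))

theorem exists_round {k L : ℕ} (hL : 2 ≤ L) (t : Fin k → I)
    (h : ∀ K : ℕ, K + 2 ≤ 4 * L → ∑ j, clamp ((4 * L : ℕ) * (t j : ℝ) - (K + 1)) <
      ∑ j, clamp ((4 * L : ℕ) * (t j : ℝ) - K)) :
    ∃ (r : Fin k → I) (Λ : Finset I) (c : I → ℕ), 0 ∈ Λ ∧ 1 ∈ Λ ∧ (∀ l ∈ Λ, 2 ≤ c l) ∧
      (∀ j, |(r j : ℝ) - t j| ≤ 1 / L) ∧ ∀ F : I → ℂ, ∑ j, F (r j) = ∑ l ∈ Λ, (c l : ℂ) * F l := by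
  classical
  have hL2 : (2 : ℝ) ≤ L := by exact_mod_cast hL
  have hL0 : (0 : ℝ) < L := by linarith
  have hL1 : (0 : ℝ) < (L : ℝ) - 1 := by linarith
  have hex : ∀ K : ℕ, K + 2 ≤ 4 * L → ∃ j, (K : ℝ) < 4 * (L * t j) ∧ 4 * (L * (t j : ℝ)) < K + 2 := by
    intro K hK
    obtain ⟨j, -, hj⟩ := Finset.exists_lt_of_sum_lt (h K hK)
    have h0 : ((4 * L : ℕ) : ℝ) * t j = 4 * (L * t j) := by
      push_cast
      ring
    rw [h0] at hj
    refine ⟨j, ?_, ?_⟩
    · by_contra h1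
      rw [clamp_eq_zero (t := 4 * (L * (t j : ℝ)) - K) (by linarith [not_lt.1 h1])] at hj
      exact absurd hj (not_lt.2 (clamp_nonneg _))
    · by_contra h1
      rw [clamp_eq_one (by linarith [not_lt.1 h1])] at hj
      exact absurd hj (not_lt.2 (clamp_le_one _))
  let κ : Fin k → ℕ := fun j => min ⌊L * (t j : ℝ)⌋₊ (L - 1)
  have hκL : ∀ j, κ j + 1 ≤ L := fun j => by
    have : κ j ≤ L - 1 := min_le_right _ _
    omega
  have hκL' : ∀ j, (κ j : ℝ) + 1 ≤ L := fun j => by exact_mod_cast hκL j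
  have hκ1 : ∀ j, (κ j : ℝ) ≤ L * t j := fun j =>
    le_trans (Nat.cast_le.2 (min_le_left _ _)) (Nat.floor_le (mul_nonneg hL0.le (t j).2.1))
  have hκ2 : ∀ j, L * (t j : ℝ) ≤ κ j + 1 := fun j => by
    rcases le_total ⌊L * (t j : ℝ)⌋₊ (L - 1) with h1 | h1
    · simp only [κ, min_eq_left h1]
      exact (Nat.lt_floor_add_one _).le
    · simp only [κ, min_eq_right h1]
      rw [Nat.cast_sub (by omega : 1 ≤ L)]
      have := mul_le_of_le_one_right hL0.le (t j).2.2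
      push_cast
      linarith
  have hcell : ∀ (i : ℕ) (j : Fin k), i + 1 ≤ L → (i : ℝ) < L * t j → L * (t j : ℝ) < i + 1 →
      κ j = i := by
    intro i j hi h1 h2
    have h3 : ⌊L * (t j : ℝ)⌋₊ = i :=
      (Nat.floor_eq_iff (mul_nonneg hL0.le (t j).2.1)).2 ⟨h1.le, h2⟩
    simp only [κ, h3]
    omega
  have htwo : ∀ i : ℕ, i + 1 ≤ L → ∃ j₁ j₂, j₁ ≠ j₂ ∧ κ j₁ = i ∧ κ j₂ = i := by
    intro i hi
    obtain ⟨j₁, a1, a2⟩ := hex (4 * i) (by omega)
    obtain ⟨j₂, b1, b2⟩ := hex (4 * i + 2) (by omega)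
    push_cast at a1 a2 b1 b2
    refine ⟨j₁, j₂, ?_, hcell i j₁ hi (by linarith) (by linarith),
      hcell i j₂ hi (by linarith) (by linarith)⟩
    rintro rfl
    linarith
  let r : Fin k → I := fun j => ⟨(κ j : ℝ) / (L - 1), by positivity,
    (div_le_one hL1).2 (by linarith [hκL' j])⟩
  have hr : ∀ j, (r j : ℝ) = (κ j : ℝ) / (L - 1) := fun j => rfl
  refine ⟨r, Finset.univ.image r, fun l => (Finset.univ.filter fun j => r j = l).card,
    ?_, ?_, ?_, ?_, ?_⟩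
  · obtain ⟨j, -, -, hj, -⟩ := htwo 0 (by omega)
    refine Finset.mem_image.2 ⟨j, Finset.mem_univ _, Subtype.ext ?_⟩
    rw [hr, hj]
    simp
  · obtain ⟨j, -, -, hj, -⟩ := htwo (L - 1) (by omega)
    refine Finset.mem_image.2 ⟨j, Finset.mem_univ _, Subtype.ext ?_⟩
    rw [hr, hj, Nat.cast_sub (by omega : 1 ≤ L), Nat.cast_one, div_self hL1.ne']
    rfl
  · intro l hl
    obtain ⟨j, -, rfl⟩ := Finset.mem_image.1 hl
    obtain ⟨j₁, j₂, hne, h1, h2⟩ := htwo (κ j) (hκL j)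
    refine Finset.one_lt_card.2 ⟨j₁, ?_, j₂, ?_, hne⟩
    · exact Finset.mem_filter.2 ⟨Finset.mem_univ _, Subtype.ext (by rw [hr, hr, h1])⟩
    · exact Finset.mem_filter.2 ⟨Finset.mem_univ _, Subtype.ext (by rw [hr, hr, h2])⟩
  · intro j
    have h0 : (0 : ℝ) ≤ κ j := Nat.cast_nonneg _
    have h1 : (κ j : ℝ) / L ≤ r j := by
      rw [hr]
      exact div_le_div_of_nonneg_left h0 hL1 (by linarith)
    have h2 : (r j : ℝ) ≤ (κ j + 1) / L := by
      rw [hr, div_le_div_iff₀ hL1 hL0]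
      nlinarith [hκL' j]
    have h3 : (κ j : ℝ) / L ≤ t j := by
      rw [div_le_iff₀ hL0]
      linarith [hκ1 j]
    have h4 : (t j : ℝ) ≤ (κ j + 1) / L := by
      rw [le_div_iff₀ hL0]
      linarith [hκ2 j]
    rw [add_div] at h2 h4
    rw [abs_le]
    constructor <;> linarith
  · intro F
    rw [Finset.sum_comp F r]
    simp only [nsmul_eq_mul]

end Vale.Agent.P095U27
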