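import Vale.Agent.P101.MathlibUsed
import Mathlib.Topology.ContinuousMap.Bounded.Star

/-! The norm ultrapower `A_ω` and the central sequence algebra `F_ω(A) = A_ω ∩ A'`. -/

open Filter Topology
open scoped BoundedContinuousFunction

namespace Vale.Agent.P095U27

universe u

variable (A : Type u) [CStarAlgebra A] (ω : Ultrafilter ℕ)

/-- Bounded sequences `x`, `y` in `A` are congruent if `‖x n - y n‖ → 0` along `ω`. -/
def nullCon : RingCon (ℕ →ᵇ A) where
  r x y := Tendsto (fun n => ‖x n - y n‖) ω (𝓝 0)
  iseqv :=
    { refl := fun x => by simp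
      symm := fun h => by simpa only [norm_sub_rev] using h
      trans := fun h h' => squeeze_zero (fun _ => norm_nonneg _)
        (fun _ => norm_sub_le_norm_sub_add_norm_sub _ _ _) (by simpa using h.add h') }
  add' := fun {w x y z} h h' => squeeze_zero (fun _ => norm_nonneg _)
    (fun n => (norm_add_le (w n - x n) (y n - z n)).trans' (le_of_eq (by
      congr 1
      simp only [BoundedContinuousFunction.coe_add, Pi.add_apply]
      abel))) (by simpa using h.add h')
  mul' := fun {w x y z} h h' => squeeze_zero (fun _ => norm_nonneg _)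
    (fun n => show ‖w n * y n - x n * z n‖ ≤ ‖w n - x n‖ * ‖y‖ + ‖x‖ * ‖y n - z n‖ from by
      rw [show w n * y n - x n * z n = (w n - x n) * y n + x n * (y n - z n) by noncomm_ring]
      refine (norm_add_le _ _).trans (add_le_add ((norm_mul_le _ _).trans ?_)
        ((norm_mul_le _ _).trans ?_))
      · exact mul_le_mul_of_nonneg_left (y.norm_coe_le_norm n) (norm_nonneg _)
      · exact mul_le_mul_of_nonneg_right (x.norm_coe_le_norm n) (norm_nonneg _))
    (by simpa using (h.mul_const ‖y‖).add (h'.const_mul ‖x‖))

/-- `A_ω`: bounded sequences in `A` modulo those tending to `0` along `ω`. -/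
def Ultrapower : Type u := (nullCon A ω).Quotient

/-- Mathlib's ring structure of the quotient. -/
noncomputable def quotRing : Ring (Ultrapower A ω) := RingCon.instRingQuotient (nullCon A ω)

noncomputable instance : Ring (Ultrapower A ω) := quotRing A ω

/-- Mathlib's algebra structure of the quotient. -/
noncomputable def quotAlgebra : Algebra ℂ (Ultrapower A ω) :=
  RingCon.instAlgebraQuotient (nullCon A ω)

noncomputable instance : Algebra ℂ (Ultrapower A ω) := quotAlgebra A ω

/-- The involution of `A_ω`: the class of `x` goes to the class of `star x`. -/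
noncomputable instance : StarRing (Ultrapower A ω) where
  star := Quotient.map' (s₁ := (nullCon A ω).toSetoid) (s₂ := (nullCon A ω).toSetoid) star
    fun x y (h : Tendsto (fun n => ‖x n - y n‖) ω (𝓝 0)) =>
      show Tendsto (fun n => ‖star (x n) - star (y n)‖) ω (𝓝 0) from by
        simpa only [← star_sub, norm_star] using h
  star_involutive := by
    rintro ⟨x⟩
    exact congrArg (nullCon A ω).toQuotient (star_star x)
  star_mul := by
    rintro ⟨x⟩ ⟨y⟩
    exact congrArg (nullCon A ω).toQuotient (star_mul x y)
  star_add := by
    rintro ⟨x⟩ ⟨y⟩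
    exact congrArg (nullCon A ω).toQuotient (star_add x y)

instance : StarModule ℂ (Ultrapower A ω) where
  star_smul := by
    rintro c ⟨x⟩
    exact congrArg (nullCon A ω).toQuotient (star_smul c x)

/-- The class in `A_ω` of the constant sequence `a`. -/
noncomputable def constSeq (a : A) : Ultrapower A ω :=
  (nullCon A ω).toQuotient (BoundedContinuousFunction.const ℕ a)

/-- `F_ω(A) = A_ω ∩ A'`: the elements of `A_ω` commuting with all constant sequences. -/
noncomputable def CentralSeq : StarSubalgebra ℂ (Ultrapower A ω) :=
  StarSubalgebra.centralizer ℂ (Set.range (constSeq A ω))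

/-- `B` has a character: a nonzero `*`-homomorphism to `ℂ`. -/
def HasCharacter (B : Type u) [Semiring B] [Algebra ℂ B] [StarRing B] : Prop :=
  ∃ χ : B →⋆ₙₐ[ℂ] ℂ, χ ≠ 0

end Vale.Agent.P095U27
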