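import Vale.Agent.P095U27.StmtUltra
import Vale.Agent.P101.StmtChar

/-! Characters of `F_ω(A)` and their values on representing sequences. -/

open Filter Topology
open scoped BoundedContinuousFunction

namespace Vale.Agent.P095U27

open Vale.Agent.P101

universe u

variable {A : Type u} [CStarAlgebra A] {ω : Ultrafilter ℕ}

/-- The class of a bounded sequence. -/
noncomputable def cls (ω : Ultrafilter ℕ) (x : ℕ →ᵇ A) : Ultrapower A ω := (nullCon A ω).toQuotient x

theorem cls_eq {x y : ℕ →ᵇ A} :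
    cls ω x = cls ω y ↔ Tendsto (fun n => ‖x n - y n‖) ω (𝓝 0) := (nullCon A ω).eq

theorem cls_surj (z : Ultrapower A ω) : ∃ x, cls ω x = z := by
  obtain ⟨x⟩ := z
  exact ⟨x, rfl⟩

theorem cls_add (x y : ℕ →ᵇ A) : cls ω (x + y) = cls ω x + cls ω y := rfl

theorem cls_mul (x y : ℕ →ᵇ A) : cls ω (x * y) = cls ω x * cls ω y := rfl

theorem cls_smul (c : ℂ) (x : ℕ →ᵇ A) : cls ω (c • x) = c • cls ω x := rfl

theorem cls_star (x : ℕ →ᵇ A) : cls ω (star x) = star (cls ω x) := rfl

theorem cls_zero : cls ω (0 : ℕ →ᵇ A) = 0 := rfl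

theorem cls_one : cls ω (1 : ℕ →ᵇ A) = 1 := rfl

theorem cls_mem {x : ℕ →ᵇ A} : cls ω x ∈ CentralSeq A ω ↔ IsCentral (ω : Filter ℕ) (x : ℕ → A) := by
  have key : ∀ a : A, constSeq A ω a * cls ω x = cls ω x * constSeq A ω a ↔
      Tendsto (fun n => ‖x n * a - a * x n‖) ω (𝓝 0) := by
    intro a
    refine (cls_eq (x := BoundedContinuousFunction.const ℕ a * x)
      (y := x * BoundedContinuousFunction.const ℕ a)).trans ?_
    change Tendsto (fun n => ‖a * x n - x n * a‖) ω (𝓝 0) ↔ _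
    simp only [norm_sub_rev]
  unfold CentralSeq
  rw [StarSubalgebra.mem_centralizer_iff]
  constructor
  · intro h
    exact ⟨⟨‖x‖, x.norm_coe_le_norm⟩, fun a => (key a).1 (h _ ⟨a, rfl⟩).1⟩
  · rintro h _ ⟨a, rfl⟩
    exact ⟨(key a).2 (h.central a), (key (star a)).2 (h.central (star a))⟩

/-- A central sequence as a bounded function. -/
noncomputable def bdd {x : ℕ → A} (hx : IsCentral (ω : Filter ℕ) x) : ℕ →ᵇ A :=
  BoundedContinuousFunction.ofNormedAddCommGroupDiscrete x hx.bounded.choose hx.bounded.choose_spec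

theorem coe_bdd {x : ℕ → A} (hx : IsCentral (ω : Filter ℕ) x) : (bdd hx : ℕ → A) = x := rfl

/-- The element of `F_ω(A)` represented by a central sequence. -/
noncomputable def elt {x : ℕ → A} (hx : IsCentral (ω : Filter ℕ) x) : CentralSeq A ω :=
  ⟨cls ω (bdd hx), cls_mem.2 hx⟩

theorem elt_eq {x : ℕ → A} (hx : IsCentral (ω : Filter ℕ) x) {y : ℕ →ᵇ A} (h : (y : ℕ → A) = x) :
    (elt hx : Ultrapower A ω) = cls ω y :=
  congrArg (cls ω) (DFunLike.coe_injective ((coe_bdd hx).trans h.symm))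

/-- A representing sequence of an element of `F_ω(A)`. -/
noncomputable def rep (z : CentralSeq A ω) : ℕ →ᵇ A := (cls_surj (z : Ultrapower A ω)).choose

theorem cls_rep (z : CentralSeq A ω) : cls ω (rep z) = z := (cls_surj (z : Ultrapower A ω)).choose_spec

theorem rep_central (z : CentralSeq A ω) : IsCentral (ω : Filter ℕ) (rep z : ℕ → A) :=
  cls_mem.1 (by rw [cls_rep]; exact z.2)

theorem char_congr {χ : (ℕ → A) → ℂ} (hχ : IsCharacter (ω : Filter ℕ) χ) {x y : ℕ →ᵇ A}
    (hy : cls ω y ∈ CentralSeq A ω) (h : cls ω x = cls ω y) : χ x = χ y := by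
  have h0 : cls ω (x - y) = 0 := by
    rw [← cls_zero, cls_eq]
    simpa using cls_eq.1 h
  have h1 : IsCentral (ω : Filter ℕ) ((x - y : ℕ →ᵇ A) : ℕ → A) :=
    cls_mem.1 (by rw [h0]; exact zero_mem _)
  have h2 := hχ.add _ _ (cls_mem.1 hy) h1
  rw [hχ.null _ h1 (cls_eq.1 h), add_zero] at h2
  rw [← h2]
  congr 1
  ext n
  simp

theorem char_iff : (∃ χ : CentralSeq A ω →⋆ₙₐ[ℂ] ℂ, χ ≠ 0) ↔
    ∃ χ : (ℕ → A) → ℂ, IsCharacter (ω : Filter ℕ) χ := by
  classical
  constructor
  · rintro ⟨χ, hχ⟩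
    have h1 : χ 1 = 1 := by
      obtain ⟨z, hz⟩ : ∃ z, χ z ≠ 0 := by
        by_contra hcon
        push Not at hcon
        exact hχ (NonUnitalStarAlgHom.ext hcon)
      have h2 := map_mul χ 1 z
      rw [one_mul] at h2
      exact (mul_eq_right₀ hz).1 h2.symm
    let F : (ℕ → A) → ℂ := fun x => if h : IsCentral (ω : Filter ℕ) x then χ (elt h) else 0
    have hF : ∀ (y : ℕ →ᵇ A) (z : CentralSeq A ω), cls ω y = z → F y = χ z := by
      intro y z h
      have hy : IsCentral (ω : Filter ℕ) (y : ℕ → A) := cls_mem.1 (by rw [h]; exact z.2)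
      simp only [F, dif_pos hy]
      exact congrArg χ (Subtype.ext ((elt_eq hy rfl).trans h))
    have hF' : ∀ (x : ℕ → A) (hx : IsCentral (ω : Filter ℕ) x), F x = χ (elt hx) :=
      fun x hx => hF (bdd hx) (elt hx) rfl
    refine ⟨F, fun x hx h => ?_, ?_, fun x y hx hy => ?_, fun x y hx hy => ?_,
      fun c x hx => ?_, fun x hx => ?_⟩
    · refine (hF (bdd hx) 0 ?_).trans (map_zero χ)
      refine (cls_eq (y := 0)).2 ?_
      simpa [coe_bdd] using h
    · exact (hF 1 1 rfl).trans h1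
    · rw [hF' x hx, hF' y hy, ← map_add]
      exact hF (bdd hx + bdd hy) _ rfl
    · rw [hF' x hx, hF' y hy, ← map_mul]
      exact hF (bdd hx * bdd hy) _ rfl
    · rw [hF' x hx, ← smul_eq_mul, ← map_smul]
      exact hF (c • bdd hx) _ rfl
    · rw [hF' x hx, ← map_star]
      exact hF (star (bdd hx)) _ rfl
  · rintro ⟨χ, hχ⟩
    have hc : ∀ (z : CentralSeq A ω) (y : ℕ →ᵇ A), cls ω y = z → χ (rep z) = χ y := fun z y h =>
      char_congr hχ (by rw [h]; exact z.2) ((cls_rep z).trans h.symm)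
    have h1 : χ (rep (1 : CentralSeq A ω)) = 1 := (hc 1 1 rfl).trans hχ.one
    refine ⟨{ toFun := fun z => χ (rep z)
              map_smul' := fun c z => ?_
              map_zero' := ?_
              map_add' := fun z w => ?_
              map_mul' := fun z w => ?_
              map_star' := fun z => ?_ }, fun h => ?_⟩
    · rw [hc (c • z) (c • rep z) (by rw [cls_smul, cls_rep]; rfl)]
      exact hχ.smul c _ (rep_central z)
    · refine hχ.null _ (rep_central 0) ?_
      have h2 := (cls_eq (x := rep (0 : CentralSeq A ω)) (y := 0)).1 (cls_rep 0)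
      simpa using h2
    · rw [hc (z + w) (rep z + rep w) (by rw [cls_add, cls_rep, cls_rep]; rfl)]
      exact hχ.add _ _ (rep_central z) (rep_central w)
    · rw [hc (z * w) (rep z * rep w) (by rw [cls_mul, cls_rep, cls_rep]; rfl)]
      exact hχ.mul _ _ (rep_central z) (rep_central w)
    · rw [hc (star z) (star (rep z)) (by rw [cls_star, cls_rep]; rfl)]
      exact hχ.star _ (rep_central z)
    · have h2 : χ (rep (1 : CentralSeq A ω)) = 0 := DFunLike.congr_fun h 1
      exact one_ne_zero (h1.symm.trans h2)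

theorem hasCharacter_iff : HasCharacter (CentralSeq A ω) ↔
    ∃ χ : (ℕ → A) → ℂ, IsCharacter (ω : Filter ℕ) χ := char_iff

end Vale.Agent.P095U27
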